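import Vale.Agent.P309.Model
import Vale.Agent.P309.LearnerBound

open MeasureTheory ProbabilityTheory
open scoped ENNReal

namespace Vale.Agent.Results.P309.Full

open _root_.P309

/-- Positive answer to Q1, for every constant `C` in `M ≤ C d²`, together with the dependence on
the memory `M` in general. -/
theorem result :
    (∀ C : ℝ, 0 < C → ∃ c : ℝ, 0 < c ∧ ∃ ε₀ : ℝ, 0 < ε₀ ∧
      ∀ d : ℕ, 16 ≤ d → ∀ ε : ℝ, 0 < ε → ε < ε₀ →
        ∀ M N T : ℕ, (M : ℝ) ≤ C * d ^ 2 → N ≤ 2 ^ M → ∀ L : Learner (EuclideanSpace ℝ (Fin d)) N,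
          2 / 3 ≤ L.success T ε → c * d * Real.log (1 / ε) ≤ T) ∧
    (∃ c : ℝ, 0 < c ∧ ∃ ε₀ : ℝ, 0 < ε₀ ∧
      ∀ d : ℕ, 16 ≤ d → ∀ ε : ℝ, 0 < ε → ε < ε₀ →
        ∀ M N T : ℕ, N ≤ 2 ^ M → ∀ L : Learner (EuclideanSpace ℝ (Fin d)) N,
          2 / 3 ≤ L.success T ε →
            c * d * Real.log (1 / ε) / (1 + M / d ^ 2) ≤ T + d) := by
  constructor
  · intro C hC
    obtain ⟨c, hc, ε₀, hε₀, H⟩ := final_cor C hC
    refine ⟨c, hc, ε₀, hε₀, ?_⟩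
    intro d hd ε hε hεε M N T hM hN L hs
    exact H d hd ε hε hεε M T hM (fun J n τ hJ hn hτ => learner_bound hd L T M hN hs J n τ hJ hn hτ)
  · obtain ⟨c, hc, ε₀, hε₀, H⟩ := final_num
    refine ⟨c, hc, ε₀, hε₀, ?_⟩
    intro d hd ε hε hεε M N T hN L hs
    exact H d hd ε hε hεε M T (fun J n τ hJ hn hτ => learner_bound hd L T M hN hs J n τ hJ hn hτ)

end Vale.Agent.Results.P309.Full
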